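import Vale.Agent.P275.H490.Defs

/-!
# Row ONE: the hook polynomial of the partition with one row
-/

namespace Vale.Agent.P275.H117

open Vale.Agent.P275.H341 Vale.Agent.P275.H490

theorem rowONE (A8 : RowA8) : RowONE := by
  intro k hk1 q hq hq1
  set lam : Fin k → ℕ := fun i => if (i : ℕ) = 0 then k else 0 with hlam
  have hPt : lam ∈ Pt k := by
    rw [Pt, Finset.mem_filter, Finset.Nat.mem_antidiagonalTuple]
    constructor
    · rw [Finset.sum_eq_single (⟨0, hk1⟩ : Fin k)]
      · simp [hlam]
      · intro b _ hb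
        have h0 : (b : ℕ) ≠ 0 := fun h => hb (Fin.ext h)
        simp [hlam, h0]
      · intro h
        exact absurd (Finset.mem_univ _) h
    · intro i j hij
      have hij' : (i : ℕ) ≤ j := hij
      simp only [hlam]
      split_ifs with h1 h2
      · exact le_rfl
      · omega
      · exact Nat.zero_le _
      · exact le_rfl
  have h := A8 q hq hq1 k lam hPt
  have hjt : jt (fun i => ∏ t ∈ Finset.range i, (q ^ (t + 1) - 1)⁻¹) lam =
      ∏ t ∈ Finset.range k, (q ^ (t + 1) - 1)⁻¹ := by
    rw [jt, Matrix.det_of_isUpperTriangular]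
    · rw [Finset.prod_eq_single (⟨0, hk1⟩ : Fin k)]
      · simp [hlam]
      · intro b _ hb
        have h0 : (b : ℕ) ≠ 0 := fun h => hb (Fin.ext h)
        simp [hlam, h0]
      · intro h
        exact absurd (Finset.mem_univ _) h
    · intro i j hij
      have hij' : (j : ℕ) < i := hij
      have hi : (i : ℕ) ≠ 0 := by omega
      simp only [Matrix.of_apply, hlam, if_neg hi]
      rw [if_neg (by omega)]
  rw [hjt, Finset.prod_inv_distrib] at h
  have hP : ∏ t ∈ Finset.range k, (q ^ (t + 1) - 1) ≠ 0 :=
    Finset.prod_ne_zero_iff.2 fun t _ => sub_ne_zero.2 (hq1 (t + 1) (Nat.succ_pos t))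
  exact ((inv_mul_eq_one₀ hP).1 h).symm

end Vale.Agent.P275.H117
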